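import Vale.Agent.P166.Defs

namespace Vale.Agent.P166.H295

open MeasureTheory Matrix

/-- The ground state energy per spin: the maximum of `σᵀ J σ / (2N)` over the spin
configurations `σ ∈ {-1, 1}^N`. -/
noncomputable def maxEnergy (N : ℕ) (J : Matrix (Fin N) (Fin N) ℝ) : ℝ :=
  sSup {x : ℝ | ∃ σ : Fin N → ℝ, (∀ i, σ i = -1 ∨ σ i = 1) ∧ x = σ ⬝ᵥ (J *ᵥ σ) / (2 * (N : ℝ))}

/-- The Gibbs average of the energy per spin `σᵀ J σ / (2N)` at inverse temperature `β`. -/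
noncomputable def gibbsEnergy (N : ℕ) (β : ℝ) (J : Matrix (Fin N) (Fin N) ℝ) : ℝ :=
  (∑ σ ∈ Fintype.piFinset (fun _ : Fin N => ({-1, 1} : Finset ℝ)),
      σ ⬝ᵥ (J *ᵥ σ) / (2 * (N : ℝ)) * Real.exp (β / 2 * (σ ⬝ᵥ (J *ᵥ σ)))) /
    ∑ σ ∈ Fintype.piFinset (fun _ : Fin N => ({-1, 1} : Finset ℝ)),
      Real.exp (β / 2 * (σ ⬝ᵥ (J *ᵥ σ)))

/-- A sequence of random symmetric matrices `J N` on one probability space, each invariant in law
under orthogonal conjugation, whose random spectra almost surely satisfy the standing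
assumptions of the problem (`Admissible`). The joint law of the `J N` is arbitrary. -/
structure InvariantEnsemble {Ω : Type} [MeasurableSpace Ω] (Q : Measure Ω)
    (J : (N : ℕ) → Ω → Matrix (Fin N) (Fin N) ℝ) (μ : Measure ℝ) : Prop where
  meas : ∀ (N : ℕ) (i j : Fin N), Measurable fun ω => J N ω i j
  invariant : ∀ (N : ℕ) (O : orthogonalGroup (Fin N) ℝ),
    Q.map (fun ω i j => (O.1ᵀ * J N ω * O.1) i j) = Q.map (fun ω i j => J N ω i j)
  spectrum : ∀ᵐ ω ∂Q, ∃ Λ : (N : ℕ) → Fin N → ℝ, Admissible Λ μ ∧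
    ∀ N, ∃ V : orthogonalGroup (Fin N) ℝ, J N ω = V.1ᵀ * diagonal (Λ N) * V.1

end Vale.Agent.P166.H295
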