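import Vale.Agent.P166.Defs

/-! Existence of admissible arrays, for every compactly supported `μ`. -/

namespace Vale.Agent.P166.H295

open MeasureTheory ProbabilityTheory Set Filter Topology
open scoped ENNReal

variable (μ : Measure ℝ)

/-- The quantile function. -/
noncomputable def qt (t : ℝ) : ℝ := sInf {x | t ≤ cdf μ x}

theorem qt_bdd {t : ℝ} (ht : 0 < t) : BddBelow {x | t ≤ cdf μ x} := by
  obtain ⟨x0, hx0⟩ := ((tendsto_cdf_atBot μ).eventually (gt_mem_nhds ht)).exists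
  refine ⟨x0, fun x hx => ?_⟩
  by_contra h
  have := monotone_cdf μ (not_le.1 h).le
  have h2 : t ≤ cdf μ x := hx
  linarith

theorem qt_ne {t : ℝ} (ht : t < 1) : {x | t ≤ cdf μ x}.Nonempty := by
  obtain ⟨x0, hx0⟩ := ((tendsto_cdf_atTop μ).eventually (lt_mem_nhds ht)).exists
  exact ⟨x0, hx0.le⟩

theorem qt_le_iff {t : ℝ} (ht : 0 < t) (ht1 : t < 1) (x : ℝ) : qt μ t ≤ x ↔ t ≤ cdf μ x := by
  constructor
  · intro h
    have h1 : ∀ y, x < y → t ≤ cdf μ y := by
      intro y hy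
      obtain ⟨s, hs, hsy⟩ := (csInf_lt_iff (qt_bdd μ ht) (qt_ne μ ht1)).1 (h.trans_lt hy)
      exact le_trans hs (monotone_cdf μ hsy.le)
    have h2 : Tendsto (cdf μ) (𝓝[>] x) (𝓝 (cdf μ x)) :=
      ((cdf μ).right_continuous x).mono_left (nhdsWithin_mono _ Ioi_subset_Ici_self)
    exact ge_of_tendsto h2 (eventually_mem_nhdsWithin.mono fun y hy => h1 y hy)
  · intro h
    exact csInf_le (qt_bdd μ ht) h

theorem qt_mono : MonotoneOn (qt μ) (Ioo 0 1) := by
  intro s hs t ht hst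
  rw [qt_le_iff μ hs.1 hs.2]
  exact hst.trans ((qt_le_iff μ ht.1 ht.2 _).1 le_rfl)

theorem qt_meas : AEMeasurable (qt μ) (volume.restrict (Ioo (0 : ℝ) 1)) :=
  aemeasurable_restrict_of_monotoneOn measurableSet_Ioo (qt_mono μ)

instance : IsProbabilityMeasure (volume.restrict (Ioo (0 : ℝ) 1)) :=
  ⟨by simp⟩

theorem qt_map [IsProbabilityMeasure μ] :
    (volume.restrict (Ioo (0 : ℝ) 1)).map (qt μ) = μ := by
  have := Measure.isProbabilityMeasure_map (qt_meas μ)
  refine Measure.ext_of_Iic _ _ fun x => ?_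
  rw [Measure.map_apply_of_aemeasurable (qt_meas μ) measurableSet_Iic,
    Measure.restrict_apply' measurableSet_Ioo, ← ofReal_cdf]
  have h : qt μ ⁻¹' Iic x ∩ Ioo 0 1 = Ioo 0 1 ∩ Iic (cdf μ x) := by
    ext t
    simp only [mem_inter_iff, mem_preimage, mem_Iic, mem_Ioo]
    constructor
    · rintro ⟨h1, h2⟩
      exact ⟨h2, (qt_le_iff μ h2.1 h2.2 x).1 h1⟩
    · rintro ⟨h1, h2⟩
      exact ⟨(qt_le_iff μ h1.1 h1.2 x).2 h2, h1⟩
  rw [h]
  have h0 := cdf_nonneg μ x
  have h1 := cdf_le_one μ x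
  refine le_antisymm ?_ ?_
  · calc volume (Ioo 0 1 ∩ Iic (cdf μ x)) ≤ volume (Ioc 0 (cdf μ x)) :=
          measure_mono fun t ht => ⟨ht.1.1, ht.2⟩
      _ = ENNReal.ofReal (cdf μ x) := by rw [Real.volume_Ioc, sub_zero]
  · calc ENNReal.ofReal (cdf μ x) = volume (Ioo 0 (cdf μ x)) := by
          rw [Real.volume_Ioo, sub_zero]
      _ ≤ volume (Ioo 0 1 ∩ Iic (cdf μ x)) :=
          measure_mono fun t ht => ⟨⟨ht.1, ht.2.trans_le h1⟩, ht.2.le⟩

/-- The sampling points. -/
noncomputable def tau (N : ℕ) (s : ℝ) : ℝ := ((⌊(N : ℝ) * s⌋₊ : ℝ) + 1 / 2) / N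

theorem tau_mem {N : ℕ} (hN : 0 < N) {s : ℝ} (hs : s ∈ Ioo (0 : ℝ) 1) : tau N s ∈ Ioo (0 : ℝ) 1 := by
  have hN' : (0 : ℝ) < N := by exact_mod_cast hN
  unfold tau
  constructor
  · positivity
  · rw [div_lt_one hN']
    have h1 : ⌊(N : ℝ) * s⌋₊ < N := by
      rw [Nat.floor_lt (by have := hs.1; positivity)]
      nlinarith [hs.2]
    have h2 : (⌊(N : ℝ) * s⌋₊ : ℝ) + 1 ≤ N := by exact_mod_cast h1
    linarith

theorem tau_tendsto {s : ℝ} (hs : 0 < s) : Tendsto (fun N => tau N s) atTop (𝓝 s) := by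
  have h1 : Tendsto (fun N : ℕ => (⌊s * (N : ℝ)⌋₊ : ℝ) / N) atTop (𝓝 s) :=
    (tendsto_nat_floor_mul_div_atTop hs.le).comp tendsto_natCast_atTop_atTop
  have h2 : Tendsto (fun N : ℕ => (1 / 2 : ℝ) / N) atTop (𝓝 0) :=
    tendsto_const_div_atTop_nhds_zero_nat _
  have h3 := h1.add h2
  rw [add_zero] at h3
  refine h3.congr fun N => ?_
  unfold tau
  rw [mul_comm s, add_div]

theorem measurable_tau (N : ℕ) : Measurable (tau N) := by
  unfold tau
  have h : Measurable fun s : ℝ => ⌊(N : ℝ) * s⌋₊ :=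
    Nat.measurable_floor.comp (measurable_const.mul measurable_id)
  have h2 : Measurable fun s : ℝ => ((⌊(N : ℝ) * s⌋₊ : ℕ) : ℝ) :=
    (measurable_from_nat (f := fun n : ℕ => (n : ℝ))).comp h
  exact (h2.add_const _).div_const _

theorem sum_eq {N : ℕ} (hN : 0 < N) (g : ℝ → ℝ) :
    ∫ s in Ioo (0 : ℝ) 1, g (tau N s) =
      (1 / (N : ℝ)) * ∑ i : Fin N, g (((i : ℕ) + 1 / 2) / N) := by
  have hN' : (0 : ℝ) < N := by exact_mod_cast hN
  have hpiece : ∀ k : ℕ, ∀ s ∈ Ico ((k : ℝ) / N) (((k + 1 : ℕ) : ℝ) / N),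
      g (tau N s) = g (((k : ℕ) + 1 / 2) / N) := by
    intro k s hs
    have h1 : ⌊(N : ℝ) * s⌋₊ = k := by
      rw [Nat.floor_eq_iff (by
        have : (0 : ℝ) ≤ s := le_trans (by positivity) hs.1
        positivity)]
      have e1 := hs.1
      have e2 := hs.2
      rw [div_le_iff₀ hN'] at e1
      rw [lt_div_iff₀ hN'] at e2
      push_cast at e2
      constructor <;> linarith
    unfold tau
    rw [h1]
  have hle : ∀ k : ℕ, (k : ℝ) / N ≤ ((k + 1 : ℕ) : ℝ) / N := fun k => by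
    apply div_le_div_of_nonneg_right _ hN'.le
    push_cast
    linarith
  have hint : ∀ k : ℕ, IntervalIntegrable (fun s => g (tau N s)) volume ((k : ℝ) / N)
      (((k + 1 : ℕ) : ℝ) / N) := by
    intro k
    rw [intervalIntegrable_iff_integrableOn_Ico_of_le (hle k)]
    refine (integrableOn_const (C := g (((k : ℕ) + 1 / 2) / N)) (by simp)).congr_fun
      (fun s hs => (hpiece k s hs).symm) measurableSet_Ico
  have h1 := intervalIntegral.sum_integral_adjacent_intervals (a := fun k : ℕ => (k : ℝ) / N)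
    (n := N) (μ := volume) (f := fun s => g (tau N s)) fun k _ => hint k
  have h2 : ∀ k : ℕ, ∫ s in ((k : ℝ) / N)..(((k + 1 : ℕ) : ℝ) / N), g (tau N s) =
      (1 / (N : ℝ)) * g (((k : ℕ) + 1 / 2) / N) := by
    intro k
    rw [intervalIntegral.integral_of_le (hle k), ← integral_Ico_eq_integral_Ioc,
      setIntegral_congr_fun measurableSet_Ico (hpiece k), setIntegral_const]
    rw [Real.volume_real_Ico_of_le (hle k), smul_eq_mul]
    congr 1
    push_cast
    ring
  have h3 : ∫ s in Ioo (0 : ℝ) 1, g (tau N s) = ∫ s in (0 : ℝ)..1, g (tau N s) := by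
    rw [intervalIntegral.integral_of_le zero_le_one, integral_Ioc_eq_integral_Ioo]
  simp only [CharP.cast_eq_zero, zero_div, div_self hN'.ne'] at h1
  rw [h3, ← h1, Finset.sum_congr rfl fun k _ => h2 k, ← Finset.mul_sum]
  congr 1
  exact (Fin.sum_univ_eq_sum_range (fun k : ℕ => g (((k : ℕ) + 1 / 2) / N)) N).symm

/-- Weak convergence of the quantile arrays. -/
theorem weak_qt [IsProbabilityMeasure μ] (f : BoundedContinuousFunction ℝ ℝ) :
    Tendsto (fun N : ℕ => (1 / (N : ℝ)) * ∑ i : Fin N, f (qt μ (((i : ℕ) + 1 / 2) / N))) atTop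
      (𝓝 (∫ x, f x ∂μ)) := by
  have h1 : ∫ x, f x ∂μ = ∫ s in Ioo (0 : ℝ) 1, f (qt μ s) := by
    nth_rewrite 1 [← qt_map μ]
    rw [integral_map (qt_meas μ) f.continuous.aestronglyMeasurable]
  rw [h1]
  have h2 : Tendsto (fun N : ℕ => ∫ s in Ioo (0 : ℝ) 1, f (qt μ (tau N s))) atTop
      (𝓝 (∫ s in Ioo (0 : ℝ) 1, f (qt μ s))) := by
    have hmon := qt_mono μ
    refine tendsto_integral_filter_of_dominated_convergence (fun _ => ‖f‖) ?_ ?_
      (integrable_const _) ?_
    · filter_upwards [eventually_gt_atTop 0] with N hN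
      -- `s ↦ qt (tau N s)` is monotone on `(0, 1)`
      have hm : MonotoneOn (fun s => qt μ (tau N s)) (Ioo (0 : ℝ) 1) := by
        intro s hs t ht hst
        refine hmon (tau_mem hN hs) (tau_mem hN ht) ?_
        unfold tau
        have hN' : (0 : ℝ) < N := by exact_mod_cast hN
        refine div_le_div_of_nonneg_right ?_ hN'.le
        have : ⌊(N : ℝ) * s⌋₊ ≤ ⌊(N : ℝ) * t⌋₊ :=
          Nat.floor_le_floor (mul_le_mul_of_nonneg_left hst hN'.le)
        have : (⌊(N : ℝ) * s⌋₊ : ℝ) ≤ ⌊(N : ℝ) * t⌋₊ := by exact_mod_cast this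
        linarith
      exact f.continuous.comp_aestronglyMeasurable
        (aemeasurable_restrict_of_monotoneOn measurableSet_Ioo hm).aestronglyMeasurable
    · exact Eventually.of_forall fun N => Eventually.of_forall fun s => f.norm_coe_le_norm _
    · have hc := (hmon.countable_not_continuousWithinAt).ae_notMem
        (μ := volume.restrict (Ioo (0 : ℝ) 1))
      filter_upwards [hc, ae_restrict_mem measurableSet_Ioo] with s h3 h4
      have h5 : ContinuousWithinAt (qt μ) (Ioo 0 1) s := by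
        by_contra hcon
        exact h3 ⟨h4, hcon⟩
      have h6 : ContinuousAt (qt μ) s := h5.continuousAt (isOpen_Ioo.mem_nhds h4)
      exact (f.continuous.continuousAt.tendsto.comp h6.tendsto).comp (tau_tendsto h4.1)
  refine h2.congr' ?_
  filter_upwards [eventually_gt_atTop 0] with N hN
  exact sum_eq hN fun t => f (qt μ t)

theorem exists_admissible [IsProbabilityMeasure μ] (hμ : IsCompact μ.support) :
    ∃ Λ : (N : ℕ) → Fin N → ℝ, Admissible Λ μ := by
  have hne : μ.support.Nonempty := Measure.nonempty_support (IsProbabilityMeasure.ne_zero μ)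
  have ha := hμ.sInf_mem hne
  have hb := hμ.sSup_mem hne
  set a := sInf μ.support
  set b := sSup μ.support
  have hsup : ∀ x ∈ μ.support, a ≤ x ∧ x ≤ b := fun x hx =>
    ⟨csInf_le hμ.bddBelow hx, le_csSup hμ.bddAbove hx⟩
  have hlow : ∀ x < a, cdf μ x = 0 := by
    intro x hx
    rw [cdf_eq_real, measureReal_eq_zero_iff]
    have hsub : Iic x ⊆ μ.supportᶜ := fun y hy hys =>
      absurd (hsup y hys).1 (not_le.2 (lt_of_le_of_lt hy hx))
    exact measure_mono_null hsub Measure.measure_compl_support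
  have hhigh : cdf μ b = 1 := by
    have hsub : (Iic b)ᶜ ⊆ μ.supportᶜ := fun y hy hys => hy (hsup y hys).2
    have h0 : μ (Iic b) = 1 := by
      rw [← prob_compl_eq_zero_iff measurableSet_Iic]
      exact measure_mono_null hsub Measure.measure_compl_support
    rw [cdf_eq_real, measureReal_def, h0, ENNReal.toReal_one]
  have hpos : ∀ c, a < c → 0 < cdf μ c := by
    intro c hc
    rw [cdf_eq_real, measureReal_def, ENNReal.toReal_pos_iff]
    refine ⟨?_, measure_lt_top _ _⟩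
    have := (Measure.mem_support_iff_forall a).1 ha (Iio c) (Iio_mem_nhds hc)
    exact this.trans_le (measure_mono Iio_subset_Iic_self)
  have hlt : ∀ c, c < b → cdf μ c < 1 := by
    intro c hc
    have h1 := (Measure.mem_support_iff_forall b).1 hb (Ioi c) (Ioi_mem_nhds hc)
    have h2 : μ.real (Ioi c) = 1 - μ.real (Iic c) := by
      rw [← compl_Iic, probReal_compl_eq_one_sub measurableSet_Iic]
    have h3 : 0 < μ.real (Ioi c) := by
      rw [measureReal_def, ENNReal.toReal_pos_iff]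
      exact ⟨h1, measure_lt_top _ _⟩
    rw [cdf_eq_real]
    linarith
  set Λ : (N : ℕ) → Fin N → ℝ := fun N i => qt μ (((i : ℕ) + 1 / 2) / N) with hΛ
  have hmem : ∀ (N : ℕ) (i : Fin N), (((i : ℕ) : ℝ) + 1 / 2) / N ∈ Ioo (0 : ℝ) 1 := by
    intro N i
    have hN' : (0 : ℝ) < N := by exact_mod_cast i.pos
    constructor
    · positivity
    · rw [div_lt_one hN']
      have : ((i : ℕ) : ℝ) + 1 ≤ N := by exact_mod_cast i.2
      linarith
  have hA : ∀ (N : ℕ) (i : Fin N), a ≤ Λ N i := by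
    intro N i
    by_contra h
    have h1 := (qt_le_iff μ (hmem N i).1 (hmem N i).2 (Λ N i)).1 le_rfl
    rw [hlow _ (not_le.1 h)] at h1
    exact absurd (hmem N i).1 (not_lt.2 h1)
  have hB : ∀ (N : ℕ) (i : Fin N), Λ N i ≤ b := by
    intro N i
    rw [hΛ, qt_le_iff μ (hmem N i).1 (hmem N i).2, hhigh]
    exact (hmem N i).2.le
  refine ⟨Λ, ⟨weak_qt μ, ?_, ?_⟩⟩
  · rw [tendsto_order]
    constructor
    · intro c hc
      filter_upwards [eventually_gt_atTop 0] with N hN
      have : Nonempty (Fin N) := ⟨⟨0, hN⟩⟩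
      exact hc.trans_le (le_ciInf fun i => hA N i)
    · intro c hc
      obtain ⟨c', hc1, hc2⟩ := exists_between hc
      have h1 : Tendsto (fun N : ℕ => (1 / 2 : ℝ) / N) atTop (𝓝 0) :=
        tendsto_const_div_atTop_nhds_zero_nat _
      filter_upwards [eventually_gt_atTop 0, h1.eventually (gt_mem_nhds (hpos c' hc1))]
        with N hN h2
      refine lt_of_le_of_lt (ciInf_le ⟨a, fun y ⟨i, hi⟩ => hi ▸ hA N i⟩ ⟨0, hN⟩) ?_
      refine lt_of_le_of_lt ?_ hc2
      have h3 := hmem N ⟨0, hN⟩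
      rw [hΛ, qt_le_iff μ h3.1 h3.2]
      refine le_trans (le_of_eq ?_) h2.le
      simp
  · rw [tendsto_order]
    constructor
    · intro c hc
      have h1 : Tendsto (fun N : ℕ => (1 / 2 : ℝ) / N) atTop (𝓝 0) :=
        tendsto_const_div_atTop_nhds_zero_nat _
      filter_upwards [eventually_gt_atTop 0, h1.eventually (gt_mem_nhds (sub_pos.2 (hlt c hc)))]
        with N hN h2
      have hN' : (0 : ℝ) < N := by exact_mod_cast hN
      refine lt_of_lt_of_le ?_ (le_ciSup ⟨b, fun y ⟨i, hi⟩ => hi ▸ hB N i⟩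
        (⟨N - 1, Nat.sub_lt hN one_pos⟩ : Fin N))
      by_contra hcon
      have h3 := hmem N ⟨N - 1, Nat.sub_lt hN one_pos⟩
      have h4 := (qt_le_iff μ h3.1 h3.2 c).1 (not_lt.1 hcon)
      have h5 : (((⟨N - 1, Nat.sub_lt hN one_pos⟩ : Fin N) : ℕ) : ℝ) = N - 1 := by
        simp only
        exact Nat.cast_pred hN
      rw [h5] at h4
      have h6 : ((N : ℝ) - 1 + 1 / 2) / N = 1 - 1 / 2 / N := by
        field_simp
        ring
      rw [h6] at h4
      linarith
    · intro c hc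
      filter_upwards [eventually_gt_atTop 0] with N hN
      have : Nonempty (Fin N) := ⟨⟨0, hN⟩⟩
      exact lt_of_le_of_lt (ciSup_le fun i => hB N i) hc

end Vale.Agent.P166.H295
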