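import Mathlib

/-! Deterministic limits of convex functions of the inverse temperature. -/

namespace Vale.Agent.P166.H295

open Filter Topology

/-- A sequence of pressures `g N β` with energies `s N β` and ground state energies `m N`. -/
structure Good (g s : ℕ → ℝ → ℝ) (m : ℕ → ℝ) (C : ℝ) : Prop where
  tan : ∀ᶠ N in atTop, ∀ β γ, g N β + (γ - β) * s N β ≤ g N γ
  lip : ∀ᶠ N in atTop, ∀ β γ, |g N β - g N γ| ≤ C * |β - γ|
  zero : ∀ᶠ N in atTop, g N 0 = 0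
  up : ∀ᶠ N in atTop, ∀ β, 0 ≤ β → g N β ≤ β * m N
  lo : ∀ᶠ N in atTop, ∀ β, 0 ≤ β → β * m N - Real.log 2 ≤ g N β

/-- The properties of the limit. -/
structure Lim (P : ℝ → ℝ) (e C : ℝ) : Prop where
  zero : P 0 = 0
  lip : ∀ β γ, 0 ≤ β → 0 ≤ γ → |P β - P γ| ≤ C * |β - γ|
  up : ∀ β, 0 ≤ β → P β ≤ β * e
  lo : ∀ β, 0 ≤ β → β * e - Real.log 2 ≤ P β

theorem Good.mono {g s : ℕ → ℝ → ℝ} {m : ℕ → ℝ} {C C' : ℝ} (h : Good g s m C) (hC : C ≤ C') :
    Good g s m C' :=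
  ⟨h.tan, h.lip.mono fun N h1 β γ => (h1 β γ).trans
    (mul_le_mul_of_nonneg_right hC (abs_nonneg _)), h.zero, h.up, h.lo⟩

theorem Lim.mono {P : ℝ → ℝ} {e C C' : ℝ} (h : Lim P e C) (hC : C ≤ C') : Lim P e C' :=
  ⟨h.zero, fun β γ hβ hγ => (h.lip β γ hβ hγ).trans
    (mul_le_mul_of_nonneg_right hC (abs_nonneg _)), h.up, h.lo⟩

/-- Uniform convergence on compact intervals from convergence at rational points. -/
theorem unif {g s : ℕ → ℝ → ℝ} {m : ℕ → ℝ} {P : ℝ → ℝ} {e C : ℝ} (hC : 0 ≤ C)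
    (hg : Good g s m C) (hP : Lim P e C)
    (hq : ∀ q : ℚ, 0 < q → Tendsto (fun N => g N q) atTop (𝓝 (P q))) (B : ℝ) :
    TendstoUniformlyOn g P atTop (Set.Icc 0 B) := by
  rw [Metric.tendstoUniformlyOn_iff]
  intro ε hε
  obtain ⟨n, hn⟩ := exists_nat_gt (4 * C / ε)
  obtain ⟨M, hM⟩ := exists_nat_ge (B * (n + 1))
  have hfin : ∀ᶠ N in atTop, ∀ i ∈ Finset.range (M + 1),
      |g N ((i : ℝ) / (n + 1)) - P ((i : ℝ) / (n + 1))| < ε / 2 := by
    rw [Filter.eventually_all_finset]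
    intro i _
    rcases Nat.eq_zero_or_pos i with rfl | hi
    · filter_upwards [hg.zero] with N hN
      simp only [Nat.cast_zero, zero_div, hN, hP.zero, sub_self, abs_zero]
      positivity
    · have h1 := hq ((i : ℚ) / (n + 1)) (by positivity)
      rw [Metric.tendsto_atTop'] at h1
      obtain ⟨N0, h1⟩ := h1 (ε / 2) (by positivity)
      filter_upwards [eventually_gt_atTop N0] with N hN
      have h2 := h1 N hN
      rw [Real.dist_eq] at h2
      push_cast at h2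
      exact h2
  filter_upwards [hfin, hg.lip] with N h1 h2 β hβ
  have hn0 : (0 : ℝ) < n + 1 := by positivity
  obtain ⟨i, hi1, hi2⟩ : ∃ i : ℕ, (i : ℝ) ≤ β * (n + 1) ∧ β * (n + 1) < i + 1 :=
    ⟨⌊β * (n + 1)⌋₊, Nat.floor_le (mul_nonneg hβ.1 hn0.le), Nat.lt_floor_add_one _⟩
  have hiM : i ∈ Finset.range (M + 1) := by
    rw [Finset.mem_range]
    have : (i : ℝ) < M + 1 := by
      have := mul_le_mul_of_nonneg_right hβ.2 hn0.le
      linarith
    exact_mod_cast this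
  have h3 := h1 i hiM
  set q : ℝ := (i : ℝ) / (n + 1) with hq'
  have hq0 : 0 ≤ q := by positivity
  have hd : |β - q| ≤ 1 / (n + 1) := by
    rw [abs_of_nonneg]
    · rw [hq', sub_le_iff_le_add, ← add_div, le_div_iff₀ hn0]
      linarith
    · rw [hq', sub_nonneg, div_le_iff₀ hn0]
      exact hi1
  have h4 := h2 β q
  have h5 := hP.lip β q hβ.1 hq0
  have h6 : C * |β - q| ≤ ε / 4 := by
    have h7 : C * |β - q| ≤ C * (1 / (n + 1)) := mul_le_mul_of_nonneg_left hd hC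
    have h8 : C * (1 / (n + 1)) ≤ ε / 4 := by
      rw [mul_one_div, div_le_iff₀ hn0]
      rw [div_lt_iff₀ hε] at hn
      nlinarith
    linarith
  rw [Real.dist_eq]
  have h9 : P β - g N β = (P β - P q) + (P q - g N q) + (g N q - g N β) := by ring
  rw [h9]
  have h10 : |g N q - g N β| ≤ ε / 4 := by rw [abs_sub_comm]; linarith
  have h11 : |P q - g N q| < ε / 2 := by rw [abs_sub_comm]; exact h3
  calc |(P β - P q) + (P q - g N q) + (g N q - g N β)| ≤
      |P β - P q| + |P q - g N q| + |g N q - g N β| := abs_add_three _ _ _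
    _ < ε := by linarith

theorem pointwise {g s : ℕ → ℝ → ℝ} {m : ℕ → ℝ} {P : ℝ → ℝ} {e C : ℝ} (hC : 0 ≤ C)
    (hg : Good g s m C) (hP : Lim P e C)
    (hq : ∀ q : ℚ, 0 < q → Tendsto (fun N => g N q) atTop (𝓝 (P q))) {β : ℝ} (hβ : 0 ≤ β) :
    Tendsto (fun N => g N β) atTop (𝓝 (P β)) :=
  (unif hC hg hP hq β).tendsto_at ⟨hβ, le_rfl⟩

/-- The error of the ground state energy. -/
theorem err_max {g m e P β : ℝ} (hβ : 0 < β) (a1 : g ≤ β * m) (a2 : β * m - Real.log 2 ≤ g)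
    (a3 : P ≤ β * e) (a4 : β * e - Real.log 2 ≤ P) :
    |m - e| ≤ (|g - P| + Real.log 2) / β := by
  rw [le_div_iff₀ hβ]
  have a5 : |m - e| * β = |β * m - β * e| := by
    rw [← mul_sub, abs_mul, abs_of_pos hβ, mul_comm]
  rw [a5, abs_le]
  have a6 := le_abs_self (g - P)
  have a7 := neg_abs_le (g - P)
  constructor <;> linarith

/-- The error of the energy (Griffiths). -/
theorem err_gibbs {g0 g1 g2 P0 P1 P2 h s u ε : ℝ} (hh : 0 < h) (t1 : g0 + h * s ≤ g1)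
    (t2 : g0 - h * s ≤ g2) (d1 : |P1 - P0 - h * u| ≤ ε * h) (d2 : |P2 - P0 + h * u| ≤ ε * h) :
    |s - u| ≤ ε + (|g0 - P0| + |g1 - P1| + |g2 - P2|) / h := by
  have b0 := abs_le.1 (le_refl |g0 - P0|)
  have b1 := abs_le.1 (le_refl |g1 - P1|)
  have b2 := abs_le.1 (le_refl |g2 - P2|)
  rw [abs_le] at d1 d2
  have e1 : ε + (|g0 - P0| + |g1 - P1| + |g2 - P2|) / h =
      (ε * h + (|g0 - P0| + |g1 - P1| + |g2 - P2|)) / h := by field_simp
  rw [e1, le_div_iff₀ hh]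
  have e2 : |s - u| * h = |h * s - h * u| := by
    rw [← mul_sub, abs_mul, abs_of_pos hh, mul_comm]
  rw [e2, abs_le]
  have c0 := abs_nonneg (g1 - P1)
  have c1 := abs_nonneg (g2 - P2)
  constructor <;> linarith [d1.1, d1.2, d2.1, d2.2, b0.1, b0.2, b1.1, b1.2, b2.1, b2.2]

theorem exists_h {P : ℝ → ℝ} {β u ε : ℝ} (hβ : 0 < β) (hε : 0 < ε) (hu : HasDerivAt P u β) :
    ∃ h : ℝ, 0 < h ∧ h ≤ β ∧ |P (β + h) - P β - h * u| ≤ ε * h ∧
      |P (β - h) - P β + h * u| ≤ ε * h := by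
  have hd := (hasDerivAt_iff_isLittleO.1 hu).def hε
  rw [Metric.eventually_nhds_iff] at hd
  obtain ⟨δ, hδ, hd⟩ := hd
  set h : ℝ := min (δ / 2) β with hh
  have hh0 : 0 < h := by positivity
  have hhδ : h < δ := (min_le_left _ _).trans_lt (by linarith)
  have d1 := hd (y := β + h) (by rw [Real.dist_eq]; simp [abs_of_pos hh0, hhδ])
  have d2 := hd (y := β - h) (by rw [Real.dist_eq]; simp [abs_of_pos hh0, hhδ])
  simp only [add_sub_cancel_left, smul_eq_mul, Real.norm_eq_abs, abs_of_pos hh0] at d1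
  have e1 : β - h - β = -h := by ring
  simp only [e1, smul_eq_mul, Real.norm_eq_abs, abs_neg, abs_of_pos hh0] at d2
  refine ⟨h, hh0, min_le_right _ _, d1, ?_⟩
  have e2 : P (β - h) - P β + h * u = P (β - h) - P β - -h * u := by ring
  rw [e2]
  exact d2

theorem lim_max {g s : ℕ → ℝ → ℝ} {m : ℕ → ℝ} {P : ℝ → ℝ} {e C : ℝ} (hC : 0 ≤ C)
    (hg : Good g s m C) (hP : Lim P e C)
    (hq : ∀ q : ℚ, 0 < q → Tendsto (fun N => g N q) atTop (𝓝 (P q))) :
    Tendsto m atTop (𝓝 e) := by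
  rw [Metric.tendsto_nhds]
  intro ε hε
  have hlog : 0 < Real.log 2 := Real.log_pos one_lt_two
  set β : ℝ := 2 * Real.log 2 / ε + 1 with hβ
  have hβ0 : 0 < β := by positivity
  have h1 := pointwise hC hg hP hq hβ0.le
  rw [Metric.tendsto_nhds] at h1
  filter_upwards [hg.up, hg.lo, h1 (ε / 2) (by positivity)] with N u1 u2 h3
  have h2 := err_max hβ0 (u1 β hβ0.le) (u2 β hβ0.le) (hP.up β hβ0.le) (hP.lo β hβ0.le)
  rw [Real.dist_eq] at h3 ⊢
  refine h2.trans_lt ?_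
  rw [div_lt_iff₀ hβ0]
  have h4 : ε * β = 2 * Real.log 2 + ε := by rw [hβ]; field_simp
  rw [h4]
  linarith

/-- Griffiths: convergence of the energies at points of differentiability. -/
theorem lim_gibbs {g s : ℕ → ℝ → ℝ} {m : ℕ → ℝ} {P : ℝ → ℝ} {e C : ℝ} (hC : 0 ≤ C)
    (hg : Good g s m C) (hP : Lim P e C)
    (hq : ∀ q : ℚ, 0 < q → Tendsto (fun N => g N q) atTop (𝓝 (P q))) {β u : ℝ} (hβ : 0 < β)
    (hu : HasDerivAt P u β) : Tendsto (fun N => s N β) atTop (𝓝 u) := by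
  rw [Metric.tendsto_nhds]
  intro ε hε
  obtain ⟨h, hh0, hhβ, d1, d2⟩ := exists_h hβ (half_pos hε) hu
  have c0 := pointwise hC hg hP hq hβ.le
  have c1 := pointwise hC hg hP hq (β := β + h) (by linarith)
  have c2 := pointwise hC hg hP hq (β := β - h) (by linarith)
  rw [Metric.tendsto_nhds] at c0 c1 c2
  have hη : 0 < ε / 8 * h := by positivity
  filter_upwards [hg.tan, c0 _ hη, c1 _ hη, c2 _ hη] with N t b0 b1 b2
  rw [Real.dist_eq] at b0 b1 b2 ⊢
  have t1 := t β (β + h)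
  have t2 := t β (β - h)
  have h3 := err_gibbs (s := s N β) (g0 := g N β) (g1 := g N (β + h)) (g2 := g N (β - h)) hh0
    (by linarith) (by linarith) d1 d2
  refine h3.trans_lt ?_
  have h4 : (|g N β - P β| + |g N (β + h) - P (β + h)| + |g N (β - h) - P (β - h)|) / h <
      ε / 2 := by
    rw [div_lt_iff₀ hh0]
    nlinarith
  linarith

end Vale.Agent.P166.H295
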